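import Vale.Agent.P145.JG.Defs

/-!
Definitions for the scaling limit of the critical Ashkin-Teller height function in Carathéodory
domains: the class of domains, and the convergence of all moments.
-/

namespace Vale.Agent.P145.H88

open Filter Topology MeasureTheory
open Vale.Agent.P145

/-- The points outside the closure of `D` which are joined to infinity outside the closure of `D`:
their connected component in the complement of the closure is unbounded. -/
def outer (D : Set (ℝ × ℝ)) : Set (ℝ × ℝ) :=
  {z | z ∉ closure D ∧ ¬ Bornology.IsBounded (connectedComponentIn (closure D)ᶜ z)}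

/-- Carathéodory sets: the bounded open sets all of whose boundary points are limits of points which
are joined to infinity outside the closure. Nothing is assumed on the regularity, the local
connectedness or the area of the boundary. -/
structure Carath (D : Set (ℝ × ℝ)) : Prop where
  op : IsOpen D
  bdd : Bornology.IsBounded D
  fr : frontier D ⊆ closure (outer D)

/-- Convergence of all moments of the height function tested against a test function, along all
lattice polygons of mesh tending to `0` approximating `D`, to the moments of the centred Gaussian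
law whose variance is `s²` times that of the Gaussian free field with covariance `2π (-Δ_D)⁻¹`:
`(2k)! / (2^k k!)` times the `k`-th power of the variance, and `0` for odd orders. -/
def MomConv (t s : ℝ) (D : Set (ℝ × ℝ)) : Prop :=
  ∀ (δ : ℕ → ℝ) (N : ℕ → ℕ) (p : ∀ n, ZMod (N n) → ℤ × ℤ) (F : ℕ → Finset (ℤ × ℤ)),
    JG.Approx D δ N p F →
    ∀ H : ∀ _ : ℕ, JG.Conf → JG.Site → ℝ,
      (∀ n, ∀ᵐ σ ∂JG.law t (p n) (F n), JG.IsHt (p n) (F n) σ (H n σ)) →
      ∀ φ : ℝ × ℝ → ℝ, JG.TestOn D φ → ∀ k : ℕ,
        Tendsto (fun n => ∫ σ, JG.fldD (F n) (H n σ) (δ n) φ ^ (2 * k) ∂JG.law t (p n) (F n)) atTop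
          (𝓝 ((2 * k).factorial / (2 ^ k * k.factorial) *
            (s ^ 2 * (2 * Real.pi * JG.V D φ)) ^ k)) ∧
        Tendsto (fun n => ∫ σ, JG.fldD (F n) (H n σ) (δ n) φ ^ (2 * k + 1)
          ∂JG.law t (p n) (F n)) atTop (𝓝 0)

end Vale.Agent.P145.H88
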