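import Vale.Agent.P145.Bdl.FC
import Vale.Agent.P145.H88.Defs

/-!
The scaling limit of the critical Ashkin-Teller height function in Carathéodory domains.
-/

section

/-!
Carathéodory open sets: exterior condition, stability, enclosed sets.
-/

namespace Vale.Agent.P145.H88

open Vale.Agent.P145.PT Set Filter Topology MeasureTheory

/-- `U` is an open exterior set for `E` all of whose points are joined to infinity in `U`. -/
structure OutOf (U E : Set (ℝ × ℝ)) : Prop where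
  opU : IsOpen U
  opE : IsOpen E
  bdd : Bornology.IsBounded E
  disj : ∀ z ∈ U, z ∉ closure E
  join : ∀ w ∈ U, ∀ B : ℝ, ∃ K, IsCompact K ∧ IsPreconnected K ∧ K ⊆ U ∧ w ∈ K ∧ ∃ q ∈ K, B ≤ ‖q‖
  fr : frontier E ⊆ closure U

theorem comp_subset_outer {D : Set (ℝ × ℝ)} {w : ℝ × ℝ} (hw : w ∈ outer D) :
    connectedComponentIn (closure D)ᶜ w ⊆ outer D := by
  intro z hz
  refine ⟨connectedComponentIn_subset _ _ hz, ?_⟩
  rw [← connectedComponentIn_eq hz]
  exact hw.2

theorem mem_comp {D : Set (ℝ × ℝ)} {w : ℝ × ℝ} (hw : w ∈ outer D) :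
    w ∈ connectedComponentIn (closure D)ᶜ w := mem_connectedComponentIn hw.1

theorem isOpen_comp (D : Set (ℝ × ℝ)) (w : ℝ × ℝ) :
    IsOpen (connectedComponentIn (closure D)ᶜ w) :=
  isClosed_closure.isOpen_compl.connectedComponentIn

theorem isOpen_outer (D : Set (ℝ × ℝ)) : IsOpen (outer D) := by
  rw [isOpen_iff_mem_nhds]
  intro w hw
  exact mem_of_superset ((isOpen_comp D w).mem_nhds (mem_comp hw)) (comp_subset_outer hw)

theorem outer_join {D : Set (ℝ × ℝ)} {w : ℝ × ℝ} (hw : w ∈ outer D) (B : ℝ) :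
    ∃ K, IsCompact K ∧ IsPreconnected K ∧ K ⊆ outer D ∧ w ∈ K ∧ ∃ q ∈ K, B ≤ ‖q‖ := by
  set C := connectedComponentIn (closure D)ᶜ w with hC
  have hCc : IsConnected C := isConnected_connectedComponentIn_iff.2 hw.1
  have hCp : IsPathConnected C := (isOpen_comp D w).isConnected_iff_isPathConnected.1 hCc
  obtain ⟨q, hq, hqB⟩ : ∃ q ∈ C, B ≤ ‖q‖ := by
    by_contra hcon
    push Not at hcon
    refine hw.2 ((isBounded_iff_forall_norm_le).2 ⟨B, fun x hx => (hcon x hx).le⟩)
  obtain ⟨γ, hγ⟩ := hCp.joinedIn w (mem_comp hw) q hq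
  refine ⟨range γ, isCompact_range γ.continuous, isPreconnected_range γ.continuous,
    ?_, ⟨0, γ.source⟩, q, ⟨1, γ.target⟩, hqB⟩
  rintro _ ⟨t, rfl⟩
  exact comp_subset_outer hw (hγ t)

/-- The hull: the complement of the closure of the exterior set. -/
def hul (D : Set (ℝ × ℝ)) : Set (ℝ × ℝ) := (closure (outer D))ᶜ

theorem isOpen_hul (D : Set (ℝ × ℝ)) : IsOpen (hul D) := isClosed_closure.isOpen_compl

theorem subset_hul {D : Set (ℝ × ℝ)} (hD : IsOpen D) : D ⊆ hul D := by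
  intro z hz hzc
  obtain ⟨w, hw, hwD⟩ := mem_closure_iff.1 hzc D hD hz
  exact hwD.1 (subset_closure hw)

/-- Far points are in the exterior set. -/
theorem far_mem_outer {D : Set (ℝ × ℝ)} {B : ℝ} (hB0 : 0 ≤ B) (hB : ∀ z ∈ closure D, ‖z‖ ≤ B)
    {w : ℝ × ℝ} (hw : B < ‖w‖) : w ∈ outer D := by
  have hw0 : w ≠ 0 := by
    rintro rfl
    rw [norm_zero] at hw; linarith
  have hray : (fun c : ℝ => c • w) '' Ici (1 : ℝ) ⊆ (closure D)ᶜ := by
    rintro _ ⟨c, hc, rfl⟩ hcl
    have h1 := hB _ hcl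
    have hc1 : (1 : ℝ) ≤ c := hc
    simp only at h1
    rw [norm_smul, Real.norm_of_nonneg (by linarith)] at h1
    nlinarith [norm_nonneg w]
  have hpre : IsPreconnected ((fun c : ℝ => c • w) '' Ici (1 : ℝ)) :=
    isPreconnected_Ici.image _ (by fun_prop)
  have hmem : w ∈ (fun c : ℝ => c • w) '' Ici (1 : ℝ) := ⟨1, self_mem_Ici, one_smul _ _⟩
  refine ⟨hray hmem, fun hb => not_isBounded_ray hw0 (hb.subset ?_)⟩
  exact hpre.subset_connectedComponentIn hmem hray

theorem exists_bound {D : Set (ℝ × ℝ)} (hb : Bornology.IsBounded D) :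
    ∃ B : ℝ, 0 ≤ B ∧ ∀ z ∈ closure D, ‖z‖ ≤ B := by
  obtain ⟨B, hB⟩ := hb.closure.exists_norm_le
  exact ⟨max B 0, le_max_right _ _, fun z hz => (hB z hz).trans (le_max_left _ _)⟩

theorem isBounded_hul {D : Set (ℝ × ℝ)} (hb : Bornology.IsBounded D) :
    Bornology.IsBounded (hul D) := by
  obtain ⟨B, hB0, hB⟩ := exists_bound hb
  refine isBounded_iff_forall_norm_le.2 ⟨B, fun z hz => ?_⟩
  by_contra hcon
  exact hz (subset_closure (far_mem_outer hB0 hB (not_le.1 hcon)))

theorem outer_disj_closure_hul {D : Set (ℝ × ℝ)} {z : ℝ × ℝ} (hz : z ∈ outer D) :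
    z ∉ closure (hul D) := by
  intro hcl
  obtain ⟨w, hw, hwh⟩ := mem_closure_iff.1 hcl _ (isOpen_outer D) hz
  exact hwh (subset_closure hw)

theorem frontier_hul (D : Set (ℝ × ℝ)) : frontier (hul D) ⊆ closure (outer D) := by
  unfold hul
  rw [frontier_compl]
  exact isClosed_closure.frontier_subset

/-- For every bounded open set the hull satisfies the exterior hypotheses. -/
theorem outOf_hul {D : Set (ℝ × ℝ)} (hb : Bornology.IsBounded D) :
    OutOf (outer D) (hul D) where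
  opU := isOpen_outer D
  opE := isOpen_hul D
  bdd := isBounded_hul hb
  disj := fun _ hz => outer_disj_closure_hul hz
  join := fun _ hw B => outer_join hw B
  fr := frontier_hul D

/-- A point outside the closure of the hull is in the exterior set. -/
theorem mem_outer_of_not_closure_hul {D : Set (ℝ × ℝ)} (hD : IsOpen D) {z : ℝ × ℝ}
    (hz : z ∉ closure (hul D)) : z ∈ outer D := by
  have h1 : z ∈ closure (outer D) := by
    by_contra h
    exact hz (subset_closure h)
  by_contra hzo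
  -- then `z` is a boundary point of the exterior set, hence in the closure of `D`
  have h2 : z ∉ closure D := fun h => hz (closure_mono (subset_hul hD) h)
  obtain ⟨w, hw, hwo⟩ := mem_closure_iff.1 h1 _ (isOpen_comp D z) (mem_connectedComponentIn h2)
  refine hzo ⟨h2, ?_⟩
  rw [connectedComponentIn_eq hw]
  exact hwo.2


/-- A point of the plane on the horizontal ray from `x` at Euclidean distance `r`. -/
theorem far_circle {E : Set (ℝ × ℝ)} {B : ℝ} (hB : ∀ z ∈ closure E, ‖z‖ ≤ B) {x : ℝ × ℝ}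
    (hx : ‖x‖ ≤ B) {r : ℝ} (hr : 2 * B + 2 ≤ r) :
    ∃ p, sqn (p - x) = r ^ 2 ∧ p ∉ Metric.thickening 1 E := by
  refine ⟨x + (r, 0), ?_, fun hp => ?_⟩
  · simp [sqn]
  · obtain ⟨z, hz, hd⟩ := Metric.mem_thickening_iff.1 hp
    have h1 := hB z (subset_closure hz)
    have h2 : ‖((r, 0) : ℝ × ℝ)‖ = |r| := by simp [Prod.norm_def]
    have h3 : ‖((r, 0) : ℝ × ℝ)‖ ≤ ‖x + (r, 0) - z‖ + ‖z‖ + ‖x‖ := by
      have e : ((r, 0) : ℝ × ℝ) = (x + (r, 0) - z) + z - x := by abel
      calc ‖((r, 0) : ℝ × ℝ)‖ = ‖(x + (r, 0) - z) + z - x‖ := by rw [← e]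
        _ ≤ ‖(x + (r, 0) - z) + z‖ + ‖x‖ := norm_sub_le _ _
        _ ≤ _ := by gcongr; exact norm_add_le _ _
    rw [dist_eq_norm] at hd
    rw [h2] at h3
    have h4 := le_abs_self r
    linarith

theorem frontier_near {E : Set (ℝ × ℝ)} (hE : IsOpen E) (hb : Bornology.IsBounded E) {x : ℝ × ℝ}
    (hx : x ∈ E) {ρ : ℝ} (h : dd E x < ρ) : ∃ z ∈ frontier E, dist x z < ρ := by
  obtain ⟨w, hw, hxw⟩ := (Metric.infDist_lt_iff (compl_ne hb)).1 h
  obtain ⟨u, hu1, hu2⟩ : (segment ℝ x w ∩ frontier E).Nonempty := by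
    by_contra hcon
    rw [not_nonempty_iff_eq_empty] at hcon
    have h2 : segment ℝ x w ⊆ E ∪ (closure E)ᶜ := by
      intro u hu
      by_cases h3 : u ∈ E
      · exact Or.inl h3
      · right
        intro h4
        have : u ∈ segment ℝ x w ∩ frontier E := ⟨hu, h4, by rwa [hE.interior_eq]⟩
        rw [hcon] at this
        exact this
    have h3 := IsPreconnected.subset_left_of_subset_union hE isClosed_closure.isOpen_compl
      (Set.disjoint_left.2 fun u h4 h5 => h5 (subset_closure h4)) h2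
      ⟨x, left_mem_segment ℝ x w, hx⟩ (convex_segment x w).isPreconnected
    exact hw (h3 (right_mem_segment ℝ x w))
  refine ⟨u, hu2, lt_of_le_of_lt ?_ hxw⟩
  obtain ⟨c, d, hc, hd, hcd, rfl⟩ := hu1
  obtain rfl : c = 1 - d := by linarith
  rw [dist_eq_norm, dist_eq_norm]
  have : x - ((1 - d) • x + d • w) = d • (x - w) := by
    simp only [sub_smul, smul_sub, one_smul]; abel
  rw [this, norm_smul, Real.norm_eq_abs, abs_of_nonneg hd]
  calc d * ‖x - w‖ ≤ 1 * ‖x - w‖ := mul_le_mul_of_nonneg_right (by linarith) (norm_nonneg _)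
    _ = ‖x - w‖ := one_mul _

/-- **The exterior condition.** -/
theorem ext_of_outOf {U E : Set (ℝ × ℝ)} (h : OutOf U E) : Ext E := by
  intro R hR
  obtain ⟨B, hB0, hB⟩ := exists_bound h.bdd
  -- the exterior path near a boundary point
  have key : ∀ z ∈ frontier E, ∃ s : ℝ, 0 < s ∧ ∀ x ∈ E, dist x z < R / 4 → ∀ r : ℝ, R ≤ r →
      r ≤ 2 * B + 2 → ∃ p, sqn (p - x) = r ^ 2 ∧ p ∉ Metric.thickening s E := by
    intro z hz
    obtain ⟨w, hw, hwz⟩ := Metric.mem_closure_iff.1 (h.fr hz) (R / 8) (by positivity)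
    obtain ⟨K, hKc, hKp, hKU, hwK, q, hq, hqB⟩ := h.join w hw (3 * B + 2)
    have hdisj : Disjoint K (closure E) := Set.disjoint_left.2 fun y hy hyc => h.disj y (hKU hy) hyc
    obtain ⟨s, hs, hsd⟩ := hdisj.exists_thickenings hKc isClosed_closure
    refine ⟨s, hs, fun x hx hxz r hr hrB => ?_⟩
    have hxB : ‖x‖ ≤ B := hB x (subset_closure hx)
    have hf : ContinuousOn (fun y : ℝ × ℝ => sqn (y - x)) K :=
      (sqn_smooth.continuous.comp (continuous_id.sub continuous_const)).continuousOn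
    have h1 : sqn (w - x) ≤ r ^ 2 := by
      have h2 := sqn_le_of_norm (w - x)
      have h3 : ‖w - x‖ ≤ 3 * R / 8 := by
        rw [← dist_eq_norm]
        have h4 := dist_triangle w z x
        rw [dist_comm w z, dist_comm z x] at h4
        linarith
      have h5 : ‖w - x‖ ^ 2 ≤ (3 * R / 8) ^ 2 := pow_le_pow_left₀ (norm_nonneg _) h3 2
      nlinarith
    have h2 : r ^ 2 ≤ sqn (q - x) := by
      have h3 := norm_sq_le_sqn (q - x)
      have h4 : r ≤ ‖q - x‖ := by
        have h5 := norm_sub_norm_le q x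
        linarith
      have h6 : r ^ 2 ≤ ‖q - x‖ ^ 2 := pow_le_pow_left₀ (by linarith) h4 2
      linarith
    obtain ⟨p, hp, hpr⟩ := hKp.intermediate_value hwK hq hf ⟨h1, h2⟩
    refine ⟨p, hpr, fun hpt => ?_⟩
    exact Set.disjoint_left.1 hsd (Metric.self_subset_thickening hs _ hp)
      (Metric.thickening_subset_of_subset s subset_closure hpt)
  choose! s hs0 hs using key
  have hfc : IsCompact (frontier E) :=
    Metric.isCompact_of_isClosed_isBounded isClosed_frontier
      (h.bdd.closure.subset frontier_subset_closure)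
  obtain ⟨t, ht, hcov⟩ := hfc.elim_nhds_subcover (fun z => Metric.ball z (R / 8))
    (fun z _ => Metric.ball_mem_nhds z (by positivity))
  -- the minimum of the radii
  obtain ⟨s₀, hs₀, hs₀'⟩ : ∃ s₀ : ℝ, 0 < s₀ ∧ ∀ z ∈ t, s₀ ≤ s z := by
    rcases t.eq_empty_or_nonempty with rfl | hne
    · exact ⟨1, one_pos, fun z hz => absurd hz (Finset.notMem_empty z)⟩
    · refine ⟨t.inf' hne s, ?_, fun z hz => Finset.inf'_le s hz⟩
      rw [Finset.lt_inf'_iff]
      exact fun z hz => hs0 z (ht z hz)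
  refine ⟨min s₀ 1, lt_min hs₀ one_pos, R / 8, by positivity, fun x hx hxd r hr => ?_⟩
  rcases le_total r (2 * B + 2) with hrB | hrB
  · obtain ⟨z, hz, hxz⟩ := frontier_near h.opE h.bdd hx hxd
    obtain ⟨y, hy, hzy⟩ := mem_iUnion₂.1 (hcov hz)
    have hzy' : dist z y < R / 8 := hzy
    obtain ⟨p, hp1, hp2⟩ := hs y (ht y hy) x hx (by
      have := dist_triangle x z y
      linarith) r hr hrB
    exact ⟨p, hp1, fun h3 => hp2 (Metric.thickening_mono ((min_le_left _ _).trans (hs₀' y hy)) _ h3)⟩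
  · obtain ⟨p, hp1, hp2⟩ := far_circle hB (hB x (subset_closure hx)) hrB
    exact ⟨p, hp1, fun h3 => hp2 (Metric.thickening_mono (min_le_right _ _) _ h3)⟩

/-- The hull of a bounded open set is stable. -/
theorem stab_hul {D : Set (ℝ × ℝ)} (hb : Bornology.IsBounded D) {φ : ℝ × ℝ → ℝ}
    (hφ : TestOn (hul D) φ) (hφ0 : ∀ z, 0 ≤ φ z) {η : ℝ} (hη : 0 < η) :
    ∃ s : ℝ, 0 < s ∧ V (Metric.thickening s (hul D)) φ ≤ V (hul D) φ + η :=
  stab (isOpen_hul D) (isBounded_hul hb) (ext_of_outOf (outOf_hul hb)) hφ hφ0 hη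

end Vale.Agent.P145.H88

end

section

/-!
Carathéodory open sets: the Dirichlet form, and the sets enclosed by approximating polygons.
-/

namespace Vale.Agent.P145.H88

open Vale.Agent.P145.PT Set Filter Topology MeasureTheory

section split

variable {D E : Set (ℝ × ℝ)}

open Classical in
/-- The restriction of a test function to an open and closed part of its domain. -/
theorem testOn_restrict (hD : IsOpen D) (hE : Disjoint (frontier D) E) {ψ : ℝ × ℝ → ℝ}
    (hψ : TestOn E ψ) : TestOn D (D.indicator ψ) ∧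
      (∀ z ∈ D, D.indicator ψ =ᶠ[𝓝 z] ψ) ∧ ∀ z ∉ D, D.indicator ψ =ᶠ[𝓝 z] fun _ => 0 := by
  have h1 : ∀ z ∈ D, D.indicator ψ =ᶠ[𝓝 z] ψ := fun z hz => by
    filter_upwards [hD.mem_nhds hz] with w hw using indicator_of_mem hw ψ
  have h2 : ∀ z ∉ D, D.indicator ψ =ᶠ[𝓝 z] fun _ => 0 := fun z hz => by
    by_cases hzc : z ∈ closure D
    · have hzf : z ∈ frontier D := ⟨hzc, by rwa [hD.interior_eq]⟩
      have hzt : z ∉ tsupport ψ := fun h => Set.disjoint_left.1 hE hzf (hψ.2.2 h)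
      filter_upwards [(isClosed_tsupport ψ).isOpen_compl.mem_nhds hzt] with w hw
      by_cases hwD : w ∈ D
      · rw [indicator_of_mem hwD]; exact image_eq_zero_of_notMem_tsupport hw
      · exact indicator_of_notMem hwD ψ
    · filter_upwards [isClosed_closure.isOpen_compl.mem_nhds hzc] with w hw
      exact indicator_of_notMem (fun h => hw (subset_closure h)) ψ
  refine ⟨⟨?_, ?_, ?_⟩, h1, h2⟩
  · rw [contDiff_iff_contDiffAt]
    intro z
    by_cases hz : z ∈ D
    · exact (hψ.1.contDiffAt).congr_of_eventuallyEq (h1 z hz)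
    · exact contDiffAt_const.congr_of_eventuallyEq (h2 z hz)
  · exact hψ.2.1.mono' (fun z hz => by
      have : z ∈ Function.support ψ := by
        rw [Function.mem_support] at hz ⊢
        intro h0
        apply hz
        by_cases hzD : z ∈ D
        · rw [indicator_of_mem hzD, h0]
        · exact indicator_of_notMem hzD ψ
      exact subset_tsupport _ this)
  · intro z hz
    by_contra hzD
    exact (notMem_tsupport_iff_eventuallyEq.2 (h2 z hzD)) hz

/-- Components of the domain do not change the Dirichlet form on the test functions of the others. -/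
theorem V_split (hD : IsOpen D) (hDE : D ⊆ E) (hb : Bornology.IsBounded E)
    (hE : Disjoint (frontier D) E) {φ : ℝ × ℝ → ℝ} (hφ : TestOn D φ) : V E φ = V D φ := by
  refine le_antisymm (V_le fun ψ hψ => ?_) (V_mono hb hDE hφ)
  obtain ⟨h0, h1, h2⟩ := testOn_restrict hD hE hψ
  refine le_trans ?_ (le_V (hb.subset hDE) hφ h0)
  have e1 : (fun z => φ z * ψ z) = fun z => φ z * D.indicator ψ z := by
    funext z
    by_cases hz : z ∈ D
    · rw [indicator_of_mem hz]
    · have : φ z = 0 := image_eq_zero_of_notMem_tsupport fun h => hz (hφ.2.2 h)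
      rw [this, zero_mul, zero_mul]
  rw [e1]
  have e2 : energy (D.indicator ψ) ≤ energy ψ := by
    unfold energy
    refine integral_mono h0.intE hψ.intE fun z => ?_
    by_cases hz : z ∈ D
    · exact le_of_eq (by simp only [PT.dx, PT.dy, (h1 z hz).fderiv_eq])
    · have h3 : fderiv ℝ (D.indicator ψ) z = 0 := by
        rw [(h2 z hz).fderiv_eq]; simp
      have h4 : PT.dx (D.indicator ψ) z = 0 := by simp only [PT.dx, h3]; rfl
      have h5 : PT.dy (D.indicator ψ) z = 0 := by simp only [PT.dy, h3]; rfl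
      have h6 : 0 ≤ PT.dx ψ z ^ 2 + PT.dy ψ z ^ 2 := by positivity
      simp only [h4, h5]
      linarith
  linarith

end split

/-- The form of the hull of a Carathéodory set. -/
theorem V_hul {D : Set (ℝ × ℝ)} (hD : Carath D) {φ : ℝ × ℝ → ℝ} (hφ : TestOn D φ) :
    V (hul D) φ = V D φ :=
  V_split hD.op (subset_hul hD.op) (isBounded_hul hD.bdd)
    (Set.disjoint_left.2 fun _ hz hh => hh (hD.fr hz)) hφ

/-- Carathéodory sets are outer-stable. -/
theorem carath_stab {D : Set (ℝ × ℝ)} (hD : Carath D) {φ : ℝ × ℝ → ℝ} (hφ : TestOn D φ)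
    (hφ0 : ∀ z, 0 ≤ φ z) {η : ℝ} (hη : 0 < η) :
    ∃ s : ℝ, 0 < s ∧ V (Metric.thickening s D) φ ≤ V D φ + η := by
  obtain ⟨s, hs, h⟩ := stab_hul hD.bdd (hφ.mono (subset_hul hD.op)) hφ0 hη
  refine ⟨s, hs, (V_mono (isBounded_hul hD.bdd).thickening
    (Metric.thickening_subset_of_subset s (subset_hul hD.op)) hφ).trans ?_⟩
  rwa [V_hul hD hφ] at h

/-- **Enclosed sets.** For every bounded open set, the points enclosed by a set close to the
boundary are close to the hull. -/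
theorem enclosed_hul {D : Set (ℝ × ℝ)} (hD : IsOpen D) (hb : Bornology.IsBounded D) {s : ℝ}
    (hs : 0 < s) : ∃ ε : ℝ, 0 < ε ∧ ∀ T : Set (ℝ × ℝ), T ⊆ Metric.thickening ε (frontier D) →
      enclosed T ⊆ Metric.thickening s (hul D) := by
  obtain ⟨B, hB0, hB⟩ := exists_bound hb
  -- rays
  have hray : ∀ w : ℝ × ℝ, B + 1 ≤ ‖w‖ → IsPreconnected ((fun c : ℝ => c • w) '' Ici (1 : ℝ)) ∧
      ¬ Bornology.IsBounded ((fun c : ℝ => c • w) '' Ici (1 : ℝ)) ∧
      w ∈ (fun c : ℝ => c • w) '' Ici (1 : ℝ) ∧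
      Disjoint ((fun c : ℝ => c • w) '' Ici (1 : ℝ)) (Metric.thickening 1 (frontier D)) := by
    intro w hw
    refine ⟨isPreconnected_Ici.image _ (by fun_prop), not_isBounded_ray (by
      rintro rfl
      rw [norm_zero] at hw; linarith), ⟨1, self_mem_Ici, one_smul _ _⟩, ?_⟩
    rw [Set.disjoint_left]
    rintro _ ⟨c, hc, rfl⟩ hth
    obtain ⟨u, hu, hd⟩ := Metric.mem_thickening_iff.1 hth
    have h1 := hB u (frontier_subset_closure hu)
    have hc1 : (1 : ℝ) ≤ c := hc
    simp only at hd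
    rw [dist_eq_norm] at hd
    have h2 := norm_sub_norm_le (c • w) u
    rw [norm_smul, Real.norm_of_nonneg (by linarith)] at h2
    nlinarith [norm_nonneg w]
  -- local statement
  have key : ∀ z ∈ outer D, ∃ r : ℝ, 0 < r ∧ ∃ e : ℝ, 0 < e ∧ ∀ T : Set (ℝ × ℝ),
      T ⊆ Metric.thickening e (frontier D) → ∀ w ∈ Metric.ball z r, w ∉ enclosed T := by
    intro z hz
    obtain ⟨r, hr, hrU⟩ := Metric.isOpen_iff.1 (isOpen_outer D) z hz
    obtain ⟨K, hKc, hKp, hKU, hzK, q, hq, hqB⟩ := outer_join hz (B + 1)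
    set L : Set (ℝ × ℝ) := Metric.closedBall z (r / 2) ∪ K with hL
    have hLc : IsCompact L := (isCompact_closedBall z (r / 2)).union hKc
    have hLU : L ⊆ outer D := union_subset
      ((Metric.closedBall_subset_ball (by linarith)).trans hrU) hKU
    have hdisj : Disjoint L (frontier D) := Set.disjoint_left.2 fun y hy hyf =>
      (hLU hy).1 (frontier_subset_closure hyf)
    obtain ⟨e, he, hed⟩ := hdisj.exists_thickenings hLc isClosed_frontier
    refine ⟨r / 2, by positivity, min e 1, lt_min he one_pos, fun T hT w hw => ?_⟩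
    obtain ⟨g1, g2, g3, g4⟩ := hray q hqB
    have hLp : IsPreconnected L := by
      refine IsPreconnected.union z (Metric.mem_closedBall_self (by positivity)) hzK
        (convex_closedBall z (r / 2)).isPreconnected hKp
    have hS : IsPreconnected (L ∪ (fun c : ℝ => c • q) '' Ici (1 : ℝ)) :=
      IsPreconnected.union q (Or.inr hq) g3 hLp g1
    refine not_mem_enclosed hS ?_ (fun hbd => g2 (hbd.subset subset_union_right))
      (Or.inl (Or.inl (Metric.ball_subset_closedBall hw)))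
    rintro y (hy | hy) hyT
    · exact Set.disjoint_left.1 hed (Metric.self_subset_thickening he _ hy)
        (Metric.thickening_mono (min_le_left _ _) _ (hT hyT))
    · exact Set.disjoint_left.1 g4 hy (Metric.thickening_mono (min_le_right _ _) _ (hT hyT))
  choose! r hr e he hkey using key
  set Z : Set (ℝ × ℝ) := Metric.closedBall 0 (B + 1) \ Metric.thickening s (hul D) with hZ
  have hZc : IsCompact Z := (isCompact_closedBall _ _).diff Metric.isOpen_thickening
  have hZo : Z ⊆ outer D := fun z hz => mem_outer_of_not_closure_hul hD fun h =>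
    hz.2 (Metric.closure_subset_thickening hs _ h)
  obtain ⟨t, ht, hcov⟩ := hZc.elim_nhds_subcover (fun z => Metric.ball z (r z))
    (fun z hz => Metric.ball_mem_nhds z (hr z (hZo hz)))
  obtain ⟨e₀, he₀, he₀'⟩ : ∃ e₀ : ℝ, 0 < e₀ ∧ ∀ z ∈ t, e₀ ≤ e z := by
    rcases t.eq_empty_or_nonempty with rfl | hne
    · exact ⟨1, one_pos, fun z hz => absurd hz (Finset.notMem_empty z)⟩
    · refine ⟨t.inf' hne e, ?_, fun z hz => Finset.inf'_le e hz⟩
      rw [Finset.lt_inf'_iff]
      exact fun z hz => he z (hZo (ht z hz))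
  refine ⟨min e₀ 1, lt_min he₀ one_pos, fun T hT w hw => ?_⟩
  by_contra hws
  rcases le_total ‖w‖ (B + 1) with hwB | hwB
  · have hwZ : w ∈ Z := ⟨by simpa using hwB, hws⟩
    obtain ⟨z, hz, hwz⟩ := mem_iUnion₂.1 (hcov hwZ)
    exact hkey z (hZo (ht z hz)) T (hT.trans (Metric.thickening_mono
      ((min_le_left _ _).trans (he₀' z hz)) _)) w hwz hw
  · obtain ⟨g1, g2, g3, g4⟩ := hray w hwB
    refine not_mem_enclosed g1 ?_ g2 g3 hw
    intro y hy hyT
    exact Set.disjoint_left.1 g4 hy (Metric.thickening_mono (min_le_right _ _) _ (hT hyT))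

end Vale.Agent.P145.H88

end

section

/-!
The squeeze between inner and outer domains, for a domain `D` inside a stable domain `E` with the
same Dirichlet form.
-/

namespace Vale.Agent.P145.H88

open Filter Topology Set MeasureTheory ProbabilityTheory
open Vale.Agent.P145.PT Vale.Agent.P145.FP Vale.Agent.P145.Dom Vale.Agent.P145.Top

variable {D : Set (ℝ × ℝ)} {δ : ℕ → ℝ} {N : ℕ → ℕ} {p : ∀ n, ZMod (N n) → ℤ × ℤ}
  {F : ℕ → Finset (ℤ × ℤ)}

/-- Eventually all enclosed squares are contained in a given open neighbourhood of the closure of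
the hull. -/
theorem approx_outer' (hD : IsOpen D) (hb : Bornology.IsBounded D) (h : Dom.Approx D δ N p F)
    {U : Set (ℝ × ℝ)} (hU : IsOpen U) (hDU : closure (hul D) ⊆ U) :
    ∀ᶠ n in atTop, ∀ f ∈ F n, Dom.sq (δ n) f ⊆ U := by
  have hc : IsCompact (closure (hul D)) := (isBounded_hul hb).isCompact_closure
  obtain ⟨s, hs, hsU⟩ := hc.exists_cthickening_subset_open hU hDU
  obtain ⟨ε, hε, hεs⟩ := enclosed_hul hD hb hs
  filter_upwards [trace_near hD hb h hε] with n hn f hf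
  have hδ := h.pos n
  have h1 := sq_subset_closure hδ hf
  have h2 := inn_subset_enclosed hδ (h.poly n) (h.encl n)
  have h3 := hεs _ hn
  have h4 : closure (inn (δ n) (F n)) ⊆ Metric.cthickening s (hul D) :=
    closure_minimal ((h2.trans h3).trans (Metric.thickening_subset_cthickening _ _))
      Metric.isClosed_cthickening
  exact (h1.trans h4).trans ((Metric.cthickening_subset_of_subset s subset_closure).trans hsU)

/-- The outer inclusion. -/
theorem s_out' (hD : IsOpen D) (hb : Bornology.IsBounded D) (h : Dom.Approx D δ N p F)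
    (D' : Set (ℝ × ℝ)) (hD' : IsOpen D') (hb' : Bornology.IsBounded D')
    (hcl : closure (hul D) ⊆ D') : ∀ᶠ n in atTop, F n ⊆ Fs (δ n) D' := by
  filter_upwards [approx_outer' hD hb h hD' hcl] with n hn f hf
  rw [mem_Fs (h.pos n) hb']
  exact fun z hz => hn f hf ⟨⟨hz.1, hz.2.1⟩, hz.2.2⟩

/-- **The squeeze.** -/
theorem squeeze' {c κ : ℝ} {δ : ℕ → ℝ} (hm : S_mono c) (hδ : ∀ n, 0 < δ n)
    (hkey : S_key c κ δ) {D E : Set (ℝ × ℝ)} (hop : IsOpen D) (hDE : D ⊆ E)
    (hEb : Bornology.IsBounded E) (hVE : ∀ φ, TestOn D φ → V E φ = V D φ)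
    (hst : ∀ φ, TestOn D φ → (∀ z, 0 ≤ φ z) → ∀ η : ℝ, 0 < η →
      ∃ s : ℝ, 0 < s ∧ V (Metric.thickening s E) φ ≤ V E φ + η)
    {F : ℕ → Finset (ℤ × ℤ)}
    (hin : ∀ D' : Set (ℝ × ℝ), IsOpen D' → Bornology.IsBounded D' → closure D' ⊆ D →
      ∀ᶠ n in atTop, Fs (δ n) D' ⊆ F n)
    (hout : ∀ D' : Set (ℝ × ℝ), IsOpen D' → Bornology.IsBounded D' → closure E ⊆ D' →
      ∀ᶠ n in atTop, F n ⊆ Fs (δ n) D')
    {φ : ℝ × ℝ → ℝ} (hφ : TestOn D φ) (k : ℕ) :
    Tendsto (fun n => ze c (F n) (fun x => zf (F n) (δ n) φ x ^ k)) atTop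
      (𝓝 (gm (κ * V D φ) k)) := by
  have hb : Bornology.IsBounded D := hEb.subset hDE
  rw [tendsto_iff_ultrafilter]
  intro U hU
  obtain ⟨p, m, hp, hm', hp0, hm0, hpm⟩ := exists_decomp hop hb hφ
  have hφe : φ = fun z => p z - m z := funext hpm
  set ψ : ℝ × ℝ → ℝ := fun z => p z + m z with hψ
  have hψT : TestOn D ψ := hp.add hm'
  have hψ0 : ∀ z, 0 ≤ ψ z := fun z => add_nonneg (hp0 z) (hm0 z)
  rw [Metric.tendsto_nhds]
  intro ε hε
  -- continuity of the Gaussian moments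
  obtain ⟨η1, hη1, hc1⟩ := Metric.continuous_iff.1
    ((gm_cont k).1.comp (continuous_const.mul continuous_id : Continuous fun v : ℝ => κ * v))
    (V D ψ) (ε / 8) (by positivity)
  obtain ⟨η2, hη2, hc2⟩ := Metric.continuous_iff.1
    ((gm_cont k).1.comp (continuous_const.mul continuous_id : Continuous fun v : ℝ => κ * v))
    (V D φ) (ε / 4) (by positivity)
  set η : ℝ := min η1 η2 / 2 with hη
  have hη0 : 0 < η := by have := lt_min hη1 hη2; positivity
  have hηη1 : η < η1 := by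
    have := lt_min hη1 hη2
    have h2 := min_le_left η1 η2
    linarith
  have hηη2 : η < η2 := by
    have := lt_min hη1 hη2
    have h2 := min_le_right η1 η2
    linarith
  -- inner and outer scales
  obtain ⟨s1, hs1, hV1⟩ := inner_stab hop hb hψT hη0
  obtain ⟨s2, hs2, hV2⟩ := inner_stab hop hb hφ hη0
  obtain ⟨s3, hs3, hT3⟩ := hp.inner hop hb
  obtain ⟨s4, hs4, hT4⟩ := hm'.inner hop hb
  obtain ⟨s5, hs5, hV5⟩ : ∃ s : ℝ, 0 < s ∧ V (Metric.thickening s E) ψ ≤ V D ψ + η := by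
    rw [← hVE ψ hψT]
    exact hst ψ hψT hψ0 η hη0
  set g : ℝ := min (min (min s1 s2) (min s3 s4)) s5 / 4 with hg
  have hmin : 0 < min (min (min s1 s2) (min s3 s4)) s5 :=
    lt_min (lt_min (lt_min hs1 hs2) (lt_min hs3 hs4)) hs5
  have hg0 : 0 < g := by positivity
  have hg1 : 4 * g ≤ s1 := by
    have : min (min (min s1 s2) (min s3 s4)) s5 ≤ s1 :=
      (min_le_left _ _).trans ((min_le_left _ _).trans (min_le_left _ _))
    linarith
  have hg2 : 4 * g ≤ s2 := by
    have : min (min (min s1 s2) (min s3 s4)) s5 ≤ s2 :=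
      (min_le_left _ _).trans ((min_le_left _ _).trans (min_le_right _ _))
    linarith
  have hg3 : 4 * g ≤ s3 := by
    have : min (min (min s1 s2) (min s3 s4)) s5 ≤ s3 :=
      (min_le_left _ _).trans ((min_le_right _ _).trans (min_le_left _ _))
    linarith
  have hg4 : 4 * g ≤ s4 := by
    have : min (min (min s1 s2) (min s3 s4)) s5 ≤ s4 :=
      (min_le_left _ _).trans ((min_le_right _ _).trans (min_le_right _ _))
    linarith
  have hg5 : 4 * g ≤ s5 := by
    have : min (min (min s1 s2) (min s3 s4)) s5 ≤ s5 := min_le_right _ _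
    linarith
  -- the families
  have hSo : (Sout g E).Finite := Sout_finite hg0 hEb
  have hSi : (Sin g D).Finite := by
    refine hSo.subset fun q hq => ?_
    have hz : ((g * q.1, g * q.2) : ℝ × ℝ) ∈ gsq g q := by
      refine ⟨le_rfl, ?_, le_rfl, ?_⟩ <;> simp only <;> nlinarith
    have h1 := hq _ hz
    exact ⟨_, hz, hDE ((dd_pos hop hb).1 (by linarith))⟩
  obtain ⟨so, hso, hGo⟩ := hkey 0 (g / 4) _ (nest_gun hg0 hSo) (gun_ball hSo) U hU
  obtain ⟨si, hsi, hGi⟩ := hkey 0 (g / 4) _ (nest_gun hg0 hSi) (gun_ball hSi) U hU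
  set Do := Metric.thickening so (gun g (Sout g E)) with hDo
  set Di := Metric.thickening si (gun g (Sin g D)) with hDi
  have hDob : Bornology.IsBounded Do := (isCompact_gun hSo).isBounded.thickening
  have hDib : Bornology.IsBounded Di := (isCompact_gun hSi).isBounded.thickening
  have hEDo : closure E ⊆ Do := by
    refine (closure_minimal (subset_gun_Sout hg0 E) (isCompact_gun hSo).isClosed).trans ?_
    exact Metric.self_subset_thickening hso.1 _
  have hDDo : closure D ⊆ Do := (closure_mono hDE).trans hEDo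
  have hDiD : closure Di ⊆ D := by
    have h1 : Di ⊆ {z | g ≤ dd D z} := fun z hz => by
      have h' := gun_Sin_subset (s := si) (by linarith [hsi.2]) D hz
      have h'' : g < dd D z := h'
      exact h''.le
    have h2 : closure Di ⊆ {z | g ≤ dd D z} :=
      closure_minimal h1 (isClosed_le continuous_const (dd_cont D))
    intro z hz
    have h3 : g ≤ dd D z := h2 hz
    exact (dd_pos hop hb).1 (by linarith)
  have hDisub : Di ⊆ D := subset_closure.trans hDiD
  have h4g : {z | 4 * g < dd D z} ⊆ Di := (subset_gun_Sin hg0 D).trans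
    (Metric.self_subset_thickening hsi.1 _)
  have hpi : TestOn Di p := hT3.mono ((inner_mono hg3).trans h4g)
  have hmi : TestOn Di m := hT4.mono ((inner_mono hg4).trans h4g)
  have hψo : TestOn Do ψ := hψT.mono (subset_closure.trans hDDo)
  have hψi : TestOn Di ψ := hpi.add hmi
  -- values of V
  have v1 : V D ψ - η ≤ V Di ψ := by
    have h1 := V_mono hDib ((inner_mono hg1).trans h4g) hψT
    linarith
  have v2 : V Di ψ ≤ V D ψ := V_mono hb hDisub hψT
  have v3 : V D φ - η ≤ V Di φ := by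
    have h1 := V_mono hDib ((inner_mono hg2).trans h4g) hφ
    linarith
  have v4 : V Di φ ≤ V D φ := V_mono hb hDisub hφ
  have v5 : V Do ψ ≤ V D ψ + η := by
    have h1 : Do ⊆ Metric.thickening s5 E :=
      (gun_Sout_subset (s := so) (by linarith [hso.2]) E).trans
        (Metric.thickening_mono (by linarith) E)
    exact (V_mono hEb.thickening h1 hψT).trans hV5
  have v6 : V D ψ ≤ V Do ψ := V_mono hDob (subset_closure.trans hDDo) hψT
  have w1 : dist (gm (κ * V Di ψ) k) (gm (κ * V D ψ) k) < ε / 8 :=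
    hc1 _ (by rw [Real.dist_eq, abs_lt]; constructor <;> linarith)
  have w2 : dist (gm (κ * V Do ψ) k) (gm (κ * V D ψ) k) < ε / 8 :=
    hc1 _ (by rw [Real.dist_eq, abs_lt]; constructor <;> linarith)
  have w3 : dist (gm (κ * V Di φ) k) (gm (κ * V D φ) k) < ε / 4 :=
    hc2 _ (by rw [Real.dist_eq, abs_lt]; constructor <;> linarith)
  -- the limits
  have l1 := signed (κ := κ) hδ hDib hGi hpi hmi hp0 hm0 k
  rw [← hφe] at l1
  have l2 := hGi ψ hψi hψ0 k
  have l3 := hGo ψ hψo hψ0 k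
  have n1 : ∀ᶠ n in (U : Filter ℕ), Fs (δ n) Di ⊆ F n :=
    hU (hin Di Metric.isOpen_thickening hDib hDiD)
  have n2 : ∀ᶠ n in (U : Filter ℕ), F n ⊆ Fs (δ n) Do :=
    hU (hout Do Metric.isOpen_thickening hDob hEDo)
  filter_upwards [n1, n2, Metric.tendsto_nhds.1 l1 (ε / 8) (by positivity),
    Metric.tendsto_nhds.1 l2 (ε / 8) (by positivity),
    Metric.tendsto_nhds.1 l3 (ε / 8) (by positivity)] with n m1 m2 d1 d2 d3
  have sq := squeeze_fin hm (hδ n) hp.cs hm'.cs hp0 hm0 m1 m2 k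
  have e1 : ze c (F n) (fun x => zf (F n) (δ n) φ x ^ k)
      = ze c (F n) (fun x => (hv (δ n) p (vh x) - hv (δ n) m (vh x)) ^ k) := by
    refine ze_congr' c (F n) fun x hx => ?_
    rw [zf_eq_hv hx]
    congr 1
    have h1 := hv_add (hδ n) hp.cs hm'.cs 1 (-1) (vh x)
    have h2 : (fun z => 1 * p z + (-1) * m z) = φ := by funext z; rw [hpm z]; ring
    rw [h2] at h1
    rw [h1]; ring
  have e2 : ∀ ω, hv (δ n) ψ ω = hv (δ n) p ω + hv (δ n) m ω := by
    intro ω
    have h1 := hv_add (hδ n) hp.cs hm'.cs 1 1 ω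
    have h2 : (fun z => 1 * p z + 1 * m z) = ψ := by funext z; rw [hψ]; ring
    rw [h2] at h1
    rw [h1]; ring
  simp_rw [e2] at d2 d3
  rw [e1]
  unfold EE at d1 d2 d3
  rw [Real.dist_eq] at d1 d2 d3 w1 w2 w3 ⊢
  rw [abs_lt] at d1 d2 d3 w1 w2 w3 ⊢
  rw [abs_le] at sq
  constructor <;> linarith [sq.1, sq.2, d1.1, d1.2, d2.1, d2.2, d3.1, d3.2, w1.1, w1.2, w2.1,
    w2.2, w3.1, w3.2]


/-- The convergence of the moments of a single test function, for Carathéodory sets. -/
theorem mom_carath {c κ : ℝ} (hD : Carath D) (hm : S_mono c)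
    (hkey : ∀ δ : ℕ → ℝ, (∀ n, 0 < δ n) → Tendsto δ atTop (𝓝 0) → S_key c κ δ)
    (hA : Dom.Approx D δ N p F) {φ : ℝ × ℝ → ℝ} (hφ : TestOn D φ) (k : ℕ) :
    Tendsto (fun n => ze c (F n) (fun x => zf (F n) (δ n) φ x ^ k)) atTop
      (𝓝 (gm (κ * V D φ) k)) :=
  squeeze' hm hA.pos (hkey δ hA.pos hA.lim) hD.op (subset_hul hD.op) (isBounded_hul hD.bdd)
    (fun _ h => V_hul hD h)
    (fun _ h h0 _ hη => stab_hul hD.bdd (h.mono (subset_hul hD.op)) h0 hη)
    (fun D' _ hb hD' => approx_in hA D' hb hD') (s_out' hD.op hD.bdd hA) hφ k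

end Vale.Agent.P145.H88

end

section

/-!
Convergence in law and of all moments for Carathéodory sets, from the inputs; Jordan domains are
Carathéodory sets.
-/

namespace Vale.Agent.P145.H88

open Filter Topology Set MeasureTheory ProbabilityTheory
open Vale.Agent.P145.PT Vale.Agent.P145.FP Vale.Agent.P145.Top

section

variable {D : Set (ℝ × ℝ)}

/-- The characteristic functions. -/
theorem conv_of_char' (hb : Bornology.IsBounded D) {t s : ℝ} {δ : ℕ → ℝ} {N : ℕ → ℕ}
    {p : ∀ n, ZMod (N n) → ℤ × ℤ} {F : ℕ → Finset (ℤ × ℤ)}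
    [∀ n, IsProbabilityMeasure (Dom.law t (p n) (F n))] (H : ∀ _ : ℕ, FP.Conf → FP.Site → ℝ)
    (hch : ∀ φ, TestOn D φ → Tendsto
      (fun n => ∫ σ, Complex.exp ((Dom.fldD (F n) (H n σ) (δ n) φ : ℂ) * Complex.I)
        ∂Dom.law t (p n) (F n)) atTop
      (𝓝 (Complex.exp (-((s ^ 2 * (2 * Real.pi) * V D φ : ℝ) : ℂ) / 2))))
    (k : ℕ) (φ : Fin k → ℝ × ℝ → ℝ) (hφ : ∀ j, TestOn D (φ j)) :
    (Matrix.of (fun i j => s ^ 2 * (2 * Real.pi * Dom.dirCov D (φ i) (φ j)))).PosSemidef ∧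
    TendstoInDistribution (fun (n : ℕ) (σ : FP.Conf) =>
      (WithLp.toLp 2 (fun j => Dom.fldD (F n) (H n σ) (δ n) (φ j)) : EuclideanSpace ℝ (Fin k)))
      atTop (id : EuclideanSpace ℝ (Fin k) → EuclideanSpace ℝ (Fin k))
      (fun n => Dom.law t (p n) (F n))
      (multivariateGaussian 0
        (Matrix.of (fun i j => s ^ 2 * (2 * Real.pi * Dom.dirCov D (φ i) (φ j))))) := by
  have hc : 0 ≤ s ^ 2 * (2 * Real.pi) := by positivity
  have e : (Matrix.of (fun i j => s ^ 2 * (2 * Real.pi * Dom.dirCov D (φ i) (φ j)))) =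
      Matrix.of (fun i j => s ^ 2 * (2 * Real.pi) * Dom.dirCov D (φ i) (φ j)) := by
    ext i j
    simp only [Matrix.of_apply]
    ring
  rw [e]
  exact Dom.vec_conv hb hc (fun n => Dom.law t (p n) (F n))
    (fun n σ φ => Dom.fldD (F n) (H n σ) (δ n) φ) (fun n σ φ ψ => Dom.fldD_add _ _ _ _ _)
    (fun n σ a φ => Dom.fldD_smul _ _ _ _ _) (fun n φ => Dom.law_aemeasurable _ _ _ _) hch k φ hφ

/-- The moments of the height function for a single test function. -/
theorem mom_law {t κ : ℝ} (ht : 0 < t) (hD : Carath D) (hm : S_mono (1 / t))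
    (hkey : ∀ δ : ℕ → ℝ, (∀ n, 0 < δ n) → Tendsto δ atTop (𝓝 0) → S_key (1 / t) κ δ)
    {δ : ℕ → ℝ} {N : ℕ → ℕ} {p : ∀ n, ZMod (N n) → ℤ × ℤ} {F : ℕ → Finset (ℤ × ℤ)}
    (hA : Dom.Approx D δ N p F) {H : ∀ _ : ℕ, FP.Conf → FP.Site → ℝ}
    (hH : ∀ n, ∀ᵐ σ ∂Dom.law t (p n) (F n), Dom.IsHt (p n) (F n) σ (H n σ))
    {φ : ℝ × ℝ → ℝ} (hφ : TestOn D φ) (k : ℕ) :
    Tendsto (fun n => ∫ σ, Dom.fldD (F n) (H n σ) (δ n) φ ^ k ∂Dom.law t (p n) (F n)) atTop
      (𝓝 (gm (κ * V D φ) k)) := by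
  refine (mom_carath hD hm hkey hA hφ k).congr fun n => ?_
  have h := Dom.law_mom ht (hA.poly n) (hA.encl n) (hH n) (δ n) (Finset.range k) (fun _ => φ)
  simp only [Finset.prod_const, Finset.card_range] at h
  exact h.symm

/-- Convergence in law. -/
theorem conv_carath {t κ s : ℝ} (ht : 0 < t) (hs : κ = s ^ 2 * (2 * Real.pi)) (hD : Carath D)
    (hm : S_mono (1 / t))
    (hkey : ∀ δ : ℕ → ℝ, (∀ n, 0 < δ n) → Tendsto δ atTop (𝓝 0) → S_key (1 / t) κ δ) :
    Dom.Conv t s D := by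
  intro δ N p F hA
  have hprob : ∀ n, IsProbabilityMeasure (Dom.law t (p n) (F n)) :=
    fun n => Dom.law_prob ht.le (p n) (F n)
  refine ⟨hprob, fun n => Dom.ae_exists_isHt (hA.poly n) (hA.encl n), ?_⟩
  intro H hH k φ hφ
  refine conv_of_char' hD.bdd H (fun ψ hψ => ?_) k φ hφ
  have key := charfun_of_moments (l := atTop) (fun n => Dom.law t (p n) (F n))
    (fun n σ => Dom.fldD (F n) (H n σ) (δ n) ψ) (fun n j => law_integrable _ _ _ _)
    (v := κ * V D ψ) (fun j => mom_law ht hD hm hkey hA hH hψ j)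
  have e1 : ((-(κ * V D ψ / 2) : ℝ) : ℂ) = -((s ^ 2 * (2 * Real.pi) * V D ψ : ℝ) : ℂ) / 2 := by
    rw [hs]; push_cast; ring
  rw [e1] at key
  refine key.congr fun n => ?_
  refine integral_congr_ae (ae_of_all _ fun σ => ?_)
  simp only []
  rw [mul_comm]

/-- Convergence of the moments. -/
theorem momConv_carath {t κ s : ℝ} (ht : 0 < t) (hs : κ = s ^ 2 * (2 * Real.pi)) (hD : Carath D)
    (hm : S_mono (1 / t))
    (hkey : ∀ δ : ℕ → ℝ, (∀ n, 0 < δ n) → Tendsto δ atTop (𝓝 0) → S_key (1 / t) κ δ) :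
    MomConv t s D := by
  intro δ N p F hA H hH φ hφ k
  have hA' : Dom.Approx D δ N p F := JG.approx_dom hA
  have hH' : ∀ n, ∀ᵐ σ ∂Dom.law t (p n) (F n), Dom.IsHt (p n) (F n) σ (H n σ) := hH
  have hφ' : TestOn D φ := hφ
  have h1 := mom_law ht hD hm hkey hA' hH' hφ' (2 * k)
  have h2 := mom_law ht hD hm hkey hA' hH' hφ' (2 * k + 1)
  have e1 : gm (κ * V D φ) (2 * k) =
      (2 * k).factorial / (2 ^ k * k.factorial) * (s ^ 2 * (2 * Real.pi * JG.V D φ)) ^ k := by
    have h3 := gm_even (κ * V D φ) k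
    have h4 : ((2 * k).factorial : ℝ) ≠ 0 := by positivity
    rw [div_eq_iff h4] at h3
    rw [h3, hs]
    have e : JG.V D φ = V D φ := rfl
    rw [e]
    have e2 : s ^ 2 * (2 * Real.pi) * V D φ / 2 = s ^ 2 * (2 * Real.pi * V D φ) / 2 := by ring
    rw [e2, div_pow]
    have h5 : (k.factorial : ℝ) ≠ 0 := by positivity
    field_simp
  rw [e1] at h1
  rw [gm_odd] at h2
  exact ⟨h1, h2⟩

/-- **The theorem, from the inputs.** -/
theorem carath_of_inputs {t κ s : ℝ} (ht : 0 < t) (hs : κ = s ^ 2 * (2 * Real.pi)) (hκ : 0 < κ)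
    (hm : S_mono (1 / t)) (hin : ∀ δ : ℕ → ℝ, (∀ n, 0 < δ n) → Tendsto δ atTop (𝓝 0) →
      S_mb (1 / t) δ ∧ S_l2 (1 / t) δ ∧ S_dec (1 / t) δ ∧ S_xst (1 / t) κ δ)
    (D : Set (ℝ × ℝ)) (hD : Carath D) : JG.Conv t s D ∧ MomConv t s D := by
  have hkey : ∀ δ : ℕ → ℝ, (∀ n, 0 < δ n) → Tendsto δ atTop (𝓝 0) → S_key (1 / t) κ δ :=
    fun δ hδ hl => key
      { cpos := by positivity
        κpos := hκ
        δpos := hδ
        δlim := hl
        mono := hm
        mb := (hin δ hδ hl).1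
        l2 := (hin δ hδ hl).2.1
        dec := (hin δ hδ hl).2.2.1
        xst := (hin δ hδ hl).2.2.2 }
  exact ⟨JG.conv_of_dom (conv_carath ht hs hD hm hkey), momConv_carath ht hs hD hm hkey⟩

end

/-- Jordan domains are Carathéodory sets. -/
theorem carath_jordan {D : Set (ℝ × ℝ)} (hD : JG.JordanDomain D) : Carath D := by
  obtain ⟨Φ, rfl⟩ : ∃ Φ : (ℝ × ℝ) ≃ₜ (ℝ × ℝ), D = Φ '' disc := hD
  have hcl : closure (Φ '' disc) ⊆ Φ '' {w | en w ≤ 1} :=
    closure_minimal (image_mono fun w hw => ((mem_disc w).1 hw).le)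
      ((isCompact_en 1).image Φ.continuous).isClosed
  refine ⟨jordan_isOpen Φ, jordan_isBounded Φ, fun z hz => ?_⟩
  obtain ⟨w, hw, rfl⟩ := hcl (frontier_subset_closure hz)
  have hw1 : en w = 1 := by
    refine le_antisymm hw (not_lt.1 fun h => ?_)
    exact hz.2 (by
      rw [(jordan_isOpen Φ).interior_eq]
      exact ⟨w, (mem_disc w).2 h, rfl⟩)
  have hw0 : w ≠ 0 := by
    rintro rfl
    unfold en sqn at hw1
    simp at hw1
  -- the points `Φ (c • w)`, `c > 1`
  have hout : ∀ c : ℝ, 1 < c → Φ (c • w) ∈ outer (Φ '' disc) := by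
    intro c hc
    have hcw : c • w ≠ 0 := smul_ne_zero (by linarith) hw0
    have hray : Φ '' ((fun a : ℝ => a • (c • w)) '' Ici (1 : ℝ)) ⊆ (closure (Φ '' disc))ᶜ := by
      rintro _ ⟨_, ⟨a, ha, rfl⟩, rfl⟩ hmem
      obtain ⟨v, hv, hvw⟩ := hcl hmem
      have hv' : v = a • (c • w) := Φ.injective hvw
      have ha1 : (1 : ℝ) ≤ a := ha
      have h1 : en v ≤ 1 := hv
      rw [hv', en_smul (by linarith), en_smul (by linarith), hw1] at h1
      nlinarith
    have hpre : IsPreconnected (Φ '' ((fun a : ℝ => a • (c • w)) '' Ici (1 : ℝ))) :=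
      (isPreconnected_Ici.image _ (by fun_prop)).image _ Φ.continuous.continuousOn
    have hmem : Φ (c • w) ∈ Φ '' ((fun a : ℝ => a • (c • w)) '' Ici (1 : ℝ)) :=
      ⟨c • w, ⟨1, self_mem_Ici, one_smul _ _⟩, rfl⟩
    refine ⟨hray hmem, fun hb => ?_⟩
    have hb2 : Bornology.IsBounded (Φ '' ((fun a : ℝ => a • (c • w)) '' Ici (1 : ℝ))) :=
      hb.subset (hpre.subset_connectedComponentIn hmem hray)
    have h1 : IsCompact (Φ.symm '' closure (Φ '' ((fun a : ℝ => a • (c • w)) '' Ici (1 : ℝ)))) :=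
      (hb2.isCompact_closure).image Φ.symm.continuous
    refine not_isBounded_ray hcw (h1.isBounded.subset ?_)
    intro x hx
    exact ⟨Φ x, subset_closure ⟨x, hx, rfl⟩, Φ.symm_apply_apply x⟩
  have hlim : Tendsto (fun c : ℝ => Φ (c • w)) (𝓝[>] 1) (𝓝 (Φ w)) := by
    have h1 : Continuous fun c : ℝ => Φ (c • w) := by fun_prop
    have h2 := (h1.tendsto 1).mono_left (nhdsWithin_le_nhds (s := Ioi (1 : ℝ)))
    simpa only [one_smul] using h2
  exact mem_closure_of_tendsto hlim (by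
    filter_upwards [self_mem_nhdsWithin] with c hc using hout c hc)

end Vale.Agent.P145.H88

end

section

/-!
The assembly.
-/

namespace Vale.Agent.P145.H88

open Filter Topology MeasureTheory
open Vale.Agent.P152 (Ori)

/-- The scaling limit in Carathéodory sets, in terms of `c`. -/
theorem carath_c {c : ℝ} (hc : 1 ≤ c) (hc2 : c ≤ 2) (hL : X.InOK c) (hV : X.Val c) {s : ℝ}
    (hs : 1 / (4 * Real.arcsin (c / 2)) = s ^ 2 * (2 * Real.pi)) (D : Set (ℝ × ℝ))
    (hD : Carath D) : JG.Conv c⁻¹ s D ∧ MomConv c⁻¹ s D := by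
  have hc0 : 0 < c := by linarith
  obtain ⟨P, κ, h⟩ := FA.exists_plIn hc hc2
  have hval := hV P κ h
  have hκ := h.κpos
  have h' : FA.PlIn c P (4 * (κ / 4)) := by
    have e : 4 * (κ / 4) = κ := by ring
    rw [e]; exact h
  have e1 : (1 : ℝ) / c⁻¹ = c := by rw [one_div, inv_inv]
  have hs' : κ / 4 = s ^ 2 * (2 * Real.pi) := by
    rw [← hs, hval, div_div, mul_comm]
  refine carath_of_inputs (inv_pos.2 hc0) hs' (by linarith) ?_ ?_ D hD
  · rw [e1]; exact FK.s_mono hc
  · rw [e1]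
    exact fun δ hδ hl => hL P (κ / 4) h' δ hδ hl

/-- **The scaling limit in Carathéodory sets**, on the whole self-dual line, with the constant. -/
theorem carath_full {J U : ℝ} (hUJ : U ≤ J) (hself : Real.sinh (2 * J) = Real.exp (-2 * U))
    (D : Set (ℝ × ℝ)) (hD : Carath D) :
    JG.Conv (1 / √(1 + Real.exp (4 * U)))
      (1 / (Real.pi * √(8 / Real.pi * Real.arcsin (√(1 + Real.exp (4 * U)) / 2)))) D ∧
    MomConv (1 / √(1 + Real.exp (4 * U)))
      (1 / (Real.pi * √(8 / Real.pi * Real.arcsin (√(1 + Real.exp (4 * U)) / 2)))) D := by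
  obtain ⟨hc, hc2⟩ := JG.c_range hUJ hself
  have h0 : 0 < Real.exp (4 * U) := Real.exp_pos _
  have hc1 : 1 < √(1 + Real.exp (4 * U)) := by
    rw [Real.lt_sqrt (by norm_num)]; linarith
  have ha : 0 < Real.arcsin (√(1 + Real.exp (4 * U)) / 2) := Real.arcsin_pos.2 (by linarith)
  have hpi := Real.pi_pos
  rw [one_div (√(1 + Real.exp (4 * U)))]
  refine carath_c hc hc2 (JG.inOK hc hc2)
    (X.val_of_mainV (P152.GFF.mainV_fin (JG.sin_small.trans hc1) hc2)) ?_ D hD
  rw [div_pow, mul_pow, Real.sq_sqrt (by positivity), one_pow]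
  field_simp
  ring

end Vale.Agent.P145.H88
end
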